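import Vale.Agent.H21.P355.N3

namespace Vale.Agent.H28.P355.N3

open scoped ComplexConjugate IntermediateField

open Polynomial

theorem frob : Frob := by
  intro p hp j P
  have _hf : Fact p.Prime := ⟨hp⟩
  have key : ∀ j : ℕ, (P.map (Int.castRingHom (ZMod p))) ^ (p ^ j) =
      expand (ZMod p) (p ^ j) (P.map (Int.castRingHom (ZMod p))) := by
    intro j
    induction j with
    | zero => simp
    | succ j ih =>
      rw [pow_succ, pow_mul, ih, ← ZMod.expand_card, expand_expand, mul_comm]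
  have hd : (C (p : ℤ)) ∣ P ^ (p ^ j) - expand ℤ (p ^ j) P := by
    rw [C_dvd_iff_dvd_coeff]
    intro i
    have h1 : (P ^ (p ^ j) - expand ℤ (p ^ j) P).map (Int.castRingHom (ZMod p)) = 0 := by
      rw [Polynomial.map_sub, Polynomial.map_pow, map_expand, key j, sub_self]
    have h2 := congrArg (fun Q => coeff Q i) h1
    simp only [coeff_map, coeff_zero] at h2
    exact (ZMod.intCast_zmod_eq_zero_iff_dvd _ p).1 h2
  obtain ⟨Q, hQ⟩ := hd
  exact ⟨Q, by rw [← hQ]; ring⟩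

/-- Row N3 (norms from cyclotomic fields). -/
theorem norm_ne (p m k : ℕ) (hp : p.Prime) (hk : 0 < k) (hm : m ∣ p ^ k + 1) (ζ : ℂ)
    (hζ : ζ ^ m = 1) (D : ℕ) (hD : Odd (padicValNat p D)) (z : ℂ) (hz : z ∈ ℚ⟮ζ⟯) :
    z * conj z ≠ (D : ℂ) :=
  norm_ne_of frob p m k hp hk hm ζ hζ D hD z hz

end Vale.Agent.H28.P355.N3
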