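import Vale.Agent.H28.P355.Defs

namespace Vale.Agent.H28.P355.N3

open scoped ComplexConjugate IntermediateField

open Polynomial

/-- the Frobenius row N0, as a hypothesis -/
def Frob : Prop := ∀ (p : ℕ), p.Prime → ∀ (j : ℕ) (P : Polynomial ℤ),
    ∃ Q : Polynomial ℤ, P ^ (p ^ j) = Polynomial.expand ℤ (p ^ j) P + Polynomial.C (p : ℤ) * Q

theorem conj_aeval (ζ : ℂ) (P : ℤ[X]) : conj (aeval ζ P) = aeval (conj ζ) P := by
  rw [aeval_def, aeval_def, hom_eval₂]
  congr 1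
  exact RingHom.ext_int _ _

theorem step (hF : Frob) (p k m : ℕ) (hp : p.Prime) (hk : 0 < k) (hm : m ∣ p ^ k + 1) (ζ : ℂ)
    (hζ : ζ ^ m = 1) (P : ℤ[X]) (N : ℕ) (h : aeval ζ P * conj (aeval ζ P) = (N : ℂ))
    (hpN : p ∣ N) : ∃ W : ℤ[X], aeval ζ P = (p : ℂ) * aeval ζ W := by
  have h1 : ζ ^ (p ^ k + 1) = 1 := by
    obtain ⟨c, hc⟩ := hm
    rw [hc, pow_mul, hζ, one_pow]
  have hn : ‖ζ‖ = 1 := by
    have : ‖ζ‖ ^ (p ^ k + 1) = 1 := by rw [← norm_pow, h1, norm_one]
    exact (pow_eq_one_iff_of_nonneg (norm_nonneg _) (by omega)).1 this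
  have hcz : conj ζ = ζ ^ (p ^ k) := by
    have hz0 : ζ ≠ 0 := by
      intro h0; rw [h0, norm_zero] at hn; exact zero_ne_one hn
    have h2 : ζ * conj ζ = 1 := by
      rw [Complex.mul_conj, Complex.normSq_eq_norm_sq, hn]; norm_num
    have h3 : ζ * ζ ^ (p ^ k) = 1 := by rw [← pow_succ']; exact h1
    exact mul_left_cancel₀ hz0 (h2.trans h3.symm)
  have h2k : ζ ^ (p ^ (2 * k)) = ζ := by
    have e : p ^ (2 * k) = (p ^ k + 1) * (p ^ k - 1) + 1 := by
      have h1' : 1 ≤ p ^ k := Nat.one_le_pow _ _ hp.pos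
      obtain ⟨u, hu⟩ := Nat.exists_eq_add_of_le h1'
      have : p ^ (2 * k) = p ^ k * p ^ k := by rw [two_mul, pow_add]
      rw [this, hu]
      have : 1 + u - 1 = u := by omega
      rw [this]; ring
    rw [e, pow_succ, pow_mul, h1, one_pow, one_mul]
  obtain ⟨A, hA⟩ := hF p hp k P
  obtain ⟨B, hB⟩ := hF p hp (2 * k) P
  have hA' : (aeval ζ P) ^ (p ^ k) = conj (aeval ζ P) + (p : ℂ) * aeval ζ A := by
    have := congrArg (aeval ζ) hA
    rw [map_pow, map_add, expand_aeval, map_mul, aeval_C, ← hcz, ← conj_aeval] at this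
    rw [this]; simp
  have hB' : (aeval ζ P) ^ (p ^ (2 * k)) = aeval ζ P + (p : ℂ) * aeval ζ B := by
    have := congrArg (aeval ζ) hB
    rw [map_pow, map_add, expand_aeval, map_mul, aeval_C, h2k] at this
    rw [this]; simp
  obtain ⟨N', hN'⟩ := hpN
  have hle : p ^ k + 1 ≤ p ^ (2 * k) := by
    have h1' : 2 ≤ p ^ k := by
      calc 2 ≤ p := hp.two_le
        _ = p ^ 1 := (pow_one p).symm
        _ ≤ p ^ k := Nat.pow_le_pow_right hp.pos hk
    have : p ^ (2 * k) = p ^ k * p ^ k := by rw [two_mul, pow_add]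
    rw [this]; nlinarith
  obtain ⟨t, ht⟩ := Nat.exists_eq_add_of_le hle
  have h4 : (aeval ζ P) ^ (p ^ k + 1) = (p : ℂ) * (N' + aeval ζ (A * P)) := by
    rw [pow_succ, hA', add_mul, mul_comm (conj _), h, hN', map_mul]
    push_cast; ring
  refine ⟨(C (N' : ℤ) + A * P) * P ^ t - B, ?_⟩
  have h5 : aeval ζ P = (aeval ζ P) ^ (p ^ (2 * k)) - (p : ℂ) * aeval ζ B := by
    rw [hB']; ring
  rw [h5, ht, pow_add, h4]
  simp only [map_sub, map_mul, map_add, map_pow, aeval_C]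
  simp
  ring

theorem even_val (hF : Frob) (p k m : ℕ) (hp : p.Prime) (hk : 0 < k) (hm : m ∣ p ^ k + 1) (ζ : ℂ)
    (hζ : ζ ^ m = 1) : ∀ N : ℕ, N ≠ 0 → ∀ P : ℤ[X],
      aeval ζ P * conj (aeval ζ P) = (N : ℂ) → Even (padicValNat p N) := by
  have _hf : Fact p.Prime := ⟨hp⟩
  have hm0 : 0 < m := Nat.pos_of_dvd_of_pos hm (by positivity)
  have hint : IsIntegral ℤ ζ := by
    refine ⟨X ^ m - 1, monic_X_pow_sub_C (1 : ℤ) hm0.ne', ?_⟩
    simp [hζ]
  intro N
  induction N using Nat.strong_induction_on with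
  | _ N ih =>
    intro hN P hP
    by_cases hpN : p ∣ N
    · obtain ⟨W, hW⟩ := step hF p k m hp hk hm ζ hζ P N hP hpN
      have hpC : (p : ℂ) ≠ 0 := by exact_mod_cast hp.ne_zero
      have h1 : aeval ζ W * conj (aeval ζ W) = ((N / (p : ℚ) ^ 2 : ℚ) : ℂ) := by
        have := hP
        rw [hW, map_mul] at this
        have hc : conj (p : ℂ) = (p : ℂ) := by simp
        rw [hc] at this
        push_cast
        rw [eq_div_iff (pow_ne_zero 2 hpC), ← this]
        ring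
      have hiW : IsIntegral ℤ (aeval ζ W) := by
        exact (IsIntegral.of_mem_of_fg (Algebra.adjoin ℤ {ζ}) hint.fg_adjoin_singleton _
          (aeval_mem_adjoin_singleton ℤ ζ))
      have hiW' : IsIntegral ℤ (conj (aeval ζ W)) := by
        rw [conj_aeval]
        have hint' : IsIntegral ℤ (conj ζ) := by
          refine ⟨X ^ m - 1, monic_X_pow_sub_C (1 : ℤ) hm0.ne', ?_⟩
          have : (conj ζ) ^ m = 1 := by rw [← map_pow, hζ, map_one]
          simp [this]
        exact (IsIntegral.of_mem_of_fg (Algebra.adjoin ℤ {conj ζ}) hint'.fg_adjoin_singleton _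
          (aeval_mem_adjoin_singleton ℤ (conj ζ)))
      have h2 : IsIntegral ℤ ((N / (p : ℚ) ^ 2 : ℚ)) := by
        have h3 : IsIntegral ℤ (algebraMap ℚ ℂ (N / (p : ℚ) ^ 2 : ℚ)) := by
          have := hiW.mul hiW'
          rw [h1] at this
          exact this
        exact (isIntegral_algebraMap_iff (algebraMap ℚ ℂ).injective).1 h3
      obtain ⟨y, hy⟩ := IsIntegrallyClosed.isIntegral_iff.1 h2
      have hpQ : (p : ℚ) ≠ 0 := by exact_mod_cast hp.ne_zero
      have h4 : (N : ℤ) = y * (p : ℤ) ^ 2 := by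
        have : (N : ℚ) = (y : ℚ) * (p : ℚ) ^ 2 := by
          have hy' : (y : ℚ) = N / (p : ℚ) ^ 2 := by simpa using hy
          rw [hy']; field_simp
        exact_mod_cast this
      have hy0 : 0 ≤ y := by
        by_contra hneg
        push Not at hneg
        have : (0 : ℤ) < (p : ℤ) ^ 2 := by have := hp.pos; positivity
        have h5 : (N : ℤ) < 0 := by rw [h4]; exact mul_neg_of_neg_of_pos hneg this
        omega
      obtain ⟨M, rfl⟩ := Int.eq_ofNat_of_zero_le hy0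
      have h6 : N = M * p ^ 2 := by exact_mod_cast h4
      have hM0 : M ≠ 0 := by rintro rfl; exact hN (by simpa using h6)
      have hlt : M < N := by
        rw [h6]
        have : 2 ^ 2 ≤ p ^ 2 := Nat.pow_le_pow_left hp.two_le 2
        nlinarith [Nat.pos_of_ne_zero hM0]
      have h7 : aeval ζ W * conj (aeval ζ W) = (M : ℂ) := by
        rw [h1, h6]
        push_cast
        field_simp
      have := ih M hlt hM0 W h7
      rw [h6, padicValNat.mul hM0 (pow_ne_zero 2 hp.ne_zero), padicValNat.prime_pow]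
      exact this.add even_two
    · rw [padicValNat.eq_zero_of_not_dvd hpN]
      exact Even.zero

/-- Row N3 (norms from cyclotomic fields). -/
theorem norm_ne_of (hF : Frob) (p m k : ℕ) (hp : p.Prime) (hk : 0 < k) (hm : m ∣ p ^ k + 1)
    (ζ : ℂ) (hζ : ζ ^ m = 1) (D : ℕ) (hD : Odd (padicValNat p D)) (z : ℂ) (hz : z ∈ ℚ⟮ζ⟯) :
    z * conj z ≠ (D : ℂ) := by
  have _hf : Fact p.Prime := ⟨hp⟩
  intro h
  have hm0 : 0 < m := Nat.pos_of_dvd_of_pos hm (by positivity)
  have hintQ : IsIntegral ℚ ζ := by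
    refine ⟨X ^ m - 1, monic_X_pow_sub_C (1 : ℚ) hm0.ne', ?_⟩
    simp [hζ]
  have hD0 : D ≠ 0 := by
    rintro rfl
    simp at hD
  have hz' : z ∈ Algebra.adjoin ℚ {ζ} := by
    rw [← IntermediateField.adjoin_simple_toSubalgebra_of_isAlgebraic hintQ.isAlgebraic]
    exact hz
  rw [Algebra.adjoin_singleton_eq_range_aeval] at hz'
  obtain ⟨P, hP⟩ := hz'
  obtain ⟨b, hb0, hb⟩ := IsLocalization.integerNormalization_spec (nonZeroDivisors ℤ) P
  set P' : ℤ[X] := IsLocalization.integerNormalization (nonZeroDivisors ℤ) P with hP'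
  have hb0' : b ≠ 0 := nonZeroDivisors.ne_zero hb0
  have h1 : aeval ζ P' = (b : ℂ) * z := by
    have e : P'.map (algebraMap ℤ ℚ) = C (b : ℚ) * P := by
      rw [hP', hb]
      ext i
      rw [coeff_C_mul]
      simp
    have : aeval ζ (P'.map (algebraMap ℤ ℚ)) = aeval ζ P' := by
      rw [aeval_map_algebraMap]
    rw [← this, e, map_mul, aeval_C]
    rw [show aeval ζ P = z from hP]
    simp
  have h2 : aeval ζ P' * conj (aeval ζ P') = ((D * b.natAbs ^ 2 : ℕ) : ℂ) := by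
    rw [h1, map_mul]
    have hc : conj (b : ℂ) = (b : ℂ) := by simp
    rw [hc]
    have h3 : ((b.natAbs : ℕ) : ℂ) ^ 2 = (b : ℂ) ^ 2 := by
      have h4 : ((b.natAbs : ℤ)) ^ 2 = b ^ 2 := Int.natAbs_sq b
      have h5 : (((b.natAbs : ℤ) ^ 2 : ℤ) : ℂ) = ((b ^ 2 : ℤ) : ℂ) := by rw [h4]
      rw [Int.cast_pow, Int.cast_pow, Int.cast_natCast] at h5
      exact h5
    push_cast
    rw [h3, ← h]
    ring
  have hbn : b.natAbs ≠ 0 := Int.natAbs_ne_zero.2 hb0'
  have h4 := even_val hF p k m hp hk hm ζ hζ (D * b.natAbs ^ 2)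
    (mul_ne_zero hD0 (pow_ne_zero 2 hbn)) P' h2
  rw [padicValNat.mul hD0 (pow_ne_zero 2 hbn), padicValNat.pow] at h4
  have h5 : Even (2 * padicValNat p b.natAbs) := even_two_mul _
  have h6 := (Nat.even_add.1 h4).2 h5
  exact (Nat.not_even_iff_odd.2 hD) h6

end Vale.Agent.H28.P355.N3
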